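import Vale.Agent.P295.MathlibUsed

/-!
P295: polynomials which are semi-invariants of an action on affine space of the group of affine
transformations `z ↦ t z + c` of the line: definitions used in the statement.
-/

open MvPolynomial

namespace Vale.Agent.P295

universe u

variable {k : Type u} [Field k] {n : ℕ}

/-- the automorphisms `ρ t c` of `k[x_1..x_n]`, `t ≠ 0`, form an algebraic action on the affine
space of dimension `n` of the group of the transformations `z ↦ t z + c` of the line: they
compose like these transformations, and each `ρ t c p` is a polynomial in `t` and `c` -/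
def IsActionOfAffineGroup
    (ρ : kˣ → k → (MvPolynomial (Fin n) k ≃ₐ[k] MvPolynomial (Fin n) k)) : Prop :=
  (∀ (s : kˣ) (b : k) (t : kˣ) (c : k) (p : MvPolynomial (Fin n) k),
    ρ s b (ρ t c p) = ρ (t * s) (t * b + c) p) ∧
  ∀ p : MvPolynomial (Fin n) k, ∃ G : Polynomial (Polynomial (MvPolynomial (Fin n) k)),
    ∀ (t : kˣ) (c : k), ρ t c p = G.evalEval (C (t : k)) (C c)

/-- `σ` is conjugate to an affine automorphism: for some automorphism `φ` all the
`(φ σ φ⁻¹)(x_i)` are of the form `a_0 + a_1 x_1 + ⋯ + a_n x_n` -/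
def IsConjugateToAffine (σ : MvPolynomial (Fin n) k ≃ₐ[k] MvPolynomial (Fin n) k) : Prop :=
  ∃ φ : MvPolynomial (Fin n) k ≃ₐ[k] MvPolynomial (Fin n) k,
    ∀ i, φ (σ (φ.symm (X i))) ∈ Submodule.span k (insert 1 (Set.range X))

/-- after adding one variable, on which the action is trivial, the action and `f` become, in
suitable coordinates, the action `x_0 ↦ t x_0 + c`, `x_i ↦ x_i` for `i ≥ 1`, and `x_0` -/
def IsStablyStandard
    (ρ : kˣ → k → (MvPolynomial (Fin n) k ≃ₐ[k] MvPolynomial (Fin n) k))
    (f : MvPolynomial (Fin n) k) : Prop :=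
  ∃ ψ : Polynomial (MvPolynomial (Fin n) k) ≃ₐ[k] MvPolynomial (Fin (n + 1)) k,
    ψ (Polynomial.C f) = X 0 ∧ ∀ (t : kˣ) (c : k) (i : Fin (n + 1)),
      ψ (Polynomial.mapAlgEquiv (ρ t c) (ψ.symm (X i))) =
        if i = 0 then C (t : k) * X 0 + C c else X i

/-- for the ring of invariants `S` of the action `k[x_1..x_n]` is the polynomial ring `S[f]` over
`S`, but `S` is not a polynomial ring over `k` -/
def HasExoticInvariants
    (ρ : kˣ → k → (MvPolynomial (Fin n) k ≃ₐ[k] MvPolynomial (Fin n) k))
    (f : MvPolynomial (Fin n) k) : Prop :=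
  ∃ S : Subalgebra k (MvPolynomial (Fin n) k), (∀ p, p ∈ S ↔ ∀ t c, ρ t c p = p) ∧
    Function.Bijective (Polynomial.aeval (R := S) f) ∧
    ∀ m : ℕ, ¬ Nonempty (S ≃ₐ[k] MvPolynomial (Fin m) k)

end Vale.Agent.P295
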