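import Vale.Agent.P293.H311.Lin
import Vale.Agent.P295.H311.Sta

/-!
P295: the action of the affine group of the line on `A[w]`.
-/

open MvPolynomial

namespace Vale.Agent.P295.H311

universe u v

section scale

variable {k : Type u} [CommRing k] {A : Type v} [CommRing A] [Algebra k A]

/-- `w ↦ t w + c` on `A[w]` -/
noncomputable def sa (t c : k) : Polynomial A →ₐ[k] Polynomial A :=
  (Polynomial.aeval (R := A) (t • (Polynomial.X : Polynomial A) +
    Polynomial.C (algebraMap k A c))).restrictScalars k

@[simp] theorem sa_C (t c : k) (a : A) : sa t c (Polynomial.C a) = Polynomial.C a := by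
  change Polynomial.aeval (R := A) (t • (Polynomial.X : Polynomial A) +
    Polynomial.C (algebraMap k A c)) (Polynomial.C a) = _
  rw [Polynomial.aeval_C]
  rfl

@[simp] theorem sa_X (t c : k) : sa t c (Polynomial.X : Polynomial A) =
    t • Polynomial.X + Polynomial.C (algebraMap k A c) := by
  change Polynomial.aeval (R := A) (t • (Polynomial.X : Polynomial A) +
    Polynomial.C (algebraMap k A c)) Polynomial.X = _
  rw [Polynomial.aeval_X]

theorem sa_comp (s b t c : k) : ((sa s b).comp (sa t c) : Polynomial A →ₐ[k] Polynomial A) =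
    sa (t * s) (t * b + c) := by
  refine Polynomial.algHom_ext' ?_ ?_
  · ext a
    simp
  · rw [AlgHom.comp_apply, sa_X, map_add, map_smul, sa_X, sa_C, sa_X, smul_add, mul_smul,
      map_add, map_add, map_mul, add_assoc, ← Algebra.smul_def, ← Polynomial.smul_C]

theorem sa_one : (sa (1 : k) 0 : Polynomial A →ₐ[k] Polynomial A) = AlgHom.id k _ := by
  refine Polynomial.algHom_ext' ?_ ?_
  · ext a
    simp
  · simp

theorem sa_sa (s b t c : k) (p : Polynomial A) : sa s b (sa t c p) = sa (t * s) (t * b + c) p := by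
  rw [← sa_comp]
  rfl

/-- the automorphism `w ↦ t w + c` of `A[w]` -/
noncomputable def ae (t : kˣ) (c : k) : Polynomial A ≃ₐ[k] Polynomial A :=
  AlgEquiv.ofAlgHom (sa (t : k) c) (sa ((t⁻¹ : kˣ) : k) (-(((t⁻¹ : kˣ) : k) * c)))
    (by
      rw [sa_comp, ← sa_one]
      congr 1
      · simp
      · simp)
    (by
      rw [sa_comp, ← sa_one]
      congr 1
      · simp
      · simp)

theorem ae_apply (t : kˣ) (c : k) (p : Polynomial A) : ae t c p = sa (t : k) c p := rfl

variable {B : Type*} [CommRing B] [Algebra k B] (e : Polynomial A ≃ₐ[k] B)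

/-- the action transported to `B` -/
noncomputable def aeB (t : kˣ) (c : k) : B ≃ₐ[k] B := (e.symm.trans (ae t c)).trans e

theorem aeB_apply (t : kˣ) (c : k) (b : B) : aeB e t c b = e (sa (t : k) c (e.symm b)) := rfl

theorem aeB_mul (s : kˣ) (b : k) (t : kˣ) (c : k) (p : B) :
    aeB e s b (aeB e t c p) = aeB e (t * s) ((t : k) * b + c) p := by
  rw [aeB_apply, aeB_apply, AlgEquiv.symm_apply_apply, sa_sa, aeB_apply]
  simp

/-- the action is algebraic -/
theorem aeB_alg (p : B) : ∃ G : Polynomial (Polynomial B), ∀ (t : kˣ) (c : k),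
    aeB e t c p = G.evalEval (algebraMap k B (t : k)) (algebraMap k B c) := by
  let F : Polynomial A →+* Polynomial (Polynomial B) :=
    Polynomial.eval₂RingHom ((Polynomial.C.comp Polynomial.C).comp
      ((e : Polynomial A →+* B).comp Polynomial.C))
      (Polynomial.C (Polynomial.X * Polynomial.C (e Polynomial.X)) + Polynomial.X)
  refine ⟨F (e.symm p), fun t c => ?_⟩
  have key : (Polynomial.evalEvalRingHom (algebraMap k B (t : k)) (algebraMap k B c)).comp F =
      (e : Polynomial A →+* B).comp
        ((sa (t : k) c : Polynomial A →ₐ[k] Polynomial A) : Polynomial A →+* Polynomial A) := by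
    refine Polynomial.ringHom_ext (fun a => ?_) ?_
    · change Polynomial.evalEval (algebraMap k B (t : k)) (algebraMap k B c)
        (F (Polynomial.C a)) = e (sa (t : k) c (Polynomial.C a))
      have h1 : F (Polynomial.C a) = Polynomial.C (Polynomial.C (e (Polynomial.C a))) :=
        Polynomial.eval₂_C _ _
      rw [h1, sa_C, Polynomial.evalEval_C, Polynomial.eval_C]
    · change Polynomial.evalEval (algebraMap k B (t : k)) (algebraMap k B c)
        (F Polynomial.X) = e (sa (t : k) c Polynomial.X)
      have h1 : F Polynomial.X =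
          Polynomial.C (Polynomial.X * Polynomial.C (e Polynomial.X)) + Polynomial.X :=
        Polynomial.eval₂_X _ _
      have h2 : (Polynomial.C (algebraMap k A c) : Polynomial A) =
        algebraMap k (Polynomial A) c := rfl
      rw [h1, sa_X, map_add, map_smul, h2, AlgEquiv.commutes, Algebra.smul_def,
        Polynomial.evalEval_add, Polynomial.evalEval_C, Polynomial.evalEval_X, Polynomial.eval_mul,
        Polynomial.eval_X, Polynomial.eval_C]
  exact (congrArg (fun f => f (e.symm p)) key).symm

end scale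

section nonlin

variable {k : Type u} [Field k]

/-- polynomials of degree at most one which generate the unit ideal: `1` is a linear combination -/
theorem one_mem_span {N : ℕ} {κ : Type*} (m : κ → MvPolynomial (Fin N) k)
    (hm : ∀ i, m i ∈ Submodule.span k (insert 1 (Set.range (X : Fin N → MvPolynomial (Fin N) k))))
    (h : (1 : MvPolynomial (Fin N) k) ∈ Ideal.span (Set.range m)) :
    (1 : MvPolynomial (Fin N) k) ∈ Submodule.span k (Set.range m) := by
  by_contra hcon
  obtain ⟨l, hl1, hl2⟩ := Submodule.exists_le_ker_of_notMem (K := k) hcon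
  let ev : MvPolynomial (Fin N) k →ₐ[k] k := aeval fun i => (l 1)⁻¹ * l (X i)
  let l' : MvPolynomial (Fin N) k →ₗ[k] k := (l 1)⁻¹ • l
  have h1 : ∀ f ∈ Submodule.span k (insert 1 (Set.range (X : Fin N → MvPolynomial (Fin N) k))),
      ev f = (l 1)⁻¹ * l f := by
    intro f hf
    have : Set.EqOn ev.toLinearMap l'
        (Submodule.span k (insert 1 (Set.range (X : Fin N → MvPolynomial (Fin N) k)))) := by
      refine LinearMap.eqOn_span ?_
      rintro x (rfl | ⟨i, rfl⟩)
      · change ev 1 = (l 1)⁻¹ * l 1
        rw [map_one, inv_mul_cancel₀ hl1]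
      · exact aeval_X _ _
    exact this hf
  have h2 : Ideal.span (Set.range m) ≤ RingHom.ker ev := by
    rw [Ideal.span_le]
    rintro _ ⟨i, rfl⟩
    change ev (m i) = 0
    have h3 : l (m i) = 0 := hl2 (Submodule.subset_span ⟨i, rfl⟩)
    rw [h1 _ (hm i), h3, mul_zero]
  have h3 : ev 1 = 0 := h2 h
  rw [map_one] at h3
  exact one_ne_zero h3

variable {A : Type v} [CommRing A] [Algebra k A]

theorem eval_sa (c : k) (a : A) (q : Polynomial A) :
    Polynomial.eval a (sa 1 c q) = Polynomial.eval (a + algebraMap k A c) q := by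
  have : (((Polynomial.aeval (R := A) a).restrictScalars k).comp (sa 1 c)) =
      (Polynomial.aeval (R := A) (a + algebraMap k A c)).restrictScalars k := by
    refine Polynomial.algHom_ext' ?_ ?_
    · ext a
      simp
    · simp
  have h := congrArg (fun f => f q) this
  simpa [Polynomial.coe_aeval_eq_eval] using h

/-- the invariants of `w ↦ w + c` -/
theorem inv_transl [CharZero k] [IsDomain A] {c : k} (hc : c ≠ 0) (q : Polynomial A)
    (h : sa 1 c q = q) : ∃ a, q = Polynomial.C a := by
  have h1 : ∀ n : ℕ, Polynomial.eval (algebraMap k A (n * c)) q = Polynomial.eval 0 q := by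
    intro n
    induction n with
    | zero => simp
    | succ n ih =>
      rw [← ih]
      conv_rhs => rw [← h, eval_sa]
      congr 1
      rw [← map_add]
      congr 1
      push_cast
      ring
  refine ⟨Polynomial.eval 0 q, ?_⟩
  rw [← sub_eq_zero]
  refine Polynomial.eq_zero_of_infinite_isRoot _ ?_
  refine Set.Infinite.mono (s := Set.range fun n : ℕ => algebraMap k A (n * c)) ?_ ?_
  · rintro _ ⟨n, rfl⟩
    change Polynomial.eval _ _ = 0
    rw [Polynomial.eval_sub, Polynomial.eval_C, h1, sub_self]
  · refine Set.infinite_range_of_injective fun n n' hn => ?_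
    have h2 := (algebraMap k A).injective hn
    have h3 := mul_right_cancel₀ hc h2
    exact_mod_cast h3

/-- if `w ↦ w + c`, `c ≠ 0`, is conjugate to an affine automorphism, `A` is a polynomial ring -/
theorem poly_of_transl [CharZero k] [IsDomain A] {N : ℕ}
    (β : Polynomial A ≃ₐ[k] MvPolynomial (Fin N) k) {c : k} (hc : c ≠ 0)
    (h : ∀ i, β (sa 1 c (β.symm (X i))) ∈
      Submodule.span k (insert 1 (Set.range (X : Fin N → MvPolynomial (Fin N) k)))) :
    ∃ r : ℕ, Nonempty (A ≃ₐ[k] MvPolynomial (Fin r) k) := by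
  let α : MvPolynomial (Fin N) k →ₐ[k] MvPolynomial (Fin N) k :=
    (β.toAlgHom.comp (sa 1 c)).comp β.symm.toAlgHom
  have hα : ∀ f, α f = β (sa 1 c (β.symm f)) := fun f => rfl
  let m : Fin N → MvPolynomial (Fin N) k := fun i => α (X i) - X i
  have hm : ∀ i, m i ∈
      Submodule.span k (insert 1 (Set.range (X : Fin N → MvPolynomial (Fin N) k))) := fun i =>
    Submodule.sub_mem _ (h i) (Submodule.subset_span (Set.mem_insert_of_mem _ ⟨i, rfl⟩))
  let I := Ideal.span (Set.range m)
  have h1 : (Ideal.Quotient.mkₐ k I).comp α = Ideal.Quotient.mkₐ k I := by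
    refine MvPolynomial.algHom_ext fun i => ?_
    change Ideal.Quotient.mk I (α (X i)) = Ideal.Quotient.mk I (X i)
    rw [Ideal.Quotient.eq]
    exact Ideal.subset_span ⟨i, rfl⟩
  have h2 : ∀ f, α f - f ∈ I := fun f => by
    rw [← Ideal.Quotient.eq]
    exact congrArg (fun g => g f) h1
  have h3 : (1 : MvPolynomial (Fin N) k) ∈ I := by
    have e1 := h2 (β Polynomial.X)
    have e0 : (Polynomial.C (algebraMap k A c) : Polynomial A) =
      algebraMap k (Polynomial A) c := rfl
    rw [hα, AlgEquiv.symm_apply_apply, sa_X, one_smul, map_add, e0, AlgEquiv.commutes,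
      add_sub_cancel_left] at e1
    have e3 := I.mul_mem_left (C c⁻¹) e1
    have e4 : (C c⁻¹ : MvPolynomial (Fin N) k) * algebraMap k (MvPolynomial (Fin N) k) c = 1 := by
      rw [MvPolynomial.algebraMap_eq, ← C_mul, inv_mul_cancel₀ hc, C_1]
    rwa [e4] at e3
  have h4 := one_mem_span m hm h3
  have h5 : Set.range m = (α.toLinearMap - LinearMap.id : MvPolynomial (Fin N) k →ₗ[k]
      MvPolynomial (Fin N) k) '' (Set.range X) := by
    rw [← Set.range_comp]
    rfl
  rw [h5, ← Submodule.map_span] at h4
  obtain ⟨l, hl, hl1⟩ := h4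
  change α l - l = 1 at hl1
  have hlX : l ∈ Submodule.span k (insert 1 (Set.range
      (X : Fin N → MvPolynomial (Fin N) k))) :=
    Submodule.span_mono (Set.subset_insert _ _) hl
  let p := β.symm l
  have hp : sa 1 c p = p + 1 := by
    apply β.injective
    have : β (sa 1 c p) = l + 1 := by
      rw [← hα, ← hl1]
      ring
    rw [this, map_add, map_one, AlgEquiv.apply_symm_apply]
  have hq : sa 1 c (p - c⁻¹ • Polynomial.X) = p - c⁻¹ • Polynomial.X := by
    have e0 : c⁻¹ • algebraMap k A c = 1 := by
      rw [Algebra.smul_def, ← map_mul, inv_mul_cancel₀ hc, map_one]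
    rw [map_sub, map_smul, hp, sa_X, one_smul, smul_add, Polynomial.smul_C, e0, Polynomial.C_1]
    ring
  obtain ⟨a, ha⟩ := inv_transl hc _ hq
  have hpa : p = c⁻¹ • Polynomial.X + Polynomial.C a := by rw [← ha]; ring
  have hpc : c • p = Polynomial.X - Polynomial.C (-(c • a)) := by
    rw [hpa, smul_add, smul_smul, mul_inv_cancel₀ hc, one_smul, Polynomial.smul_C,
      Polynomial.C_neg, sub_neg_eq_add]
  let γ : MvPolynomial (Fin N) k →ₐ[k] A :=
    ((Polynomial.aeval (R := A) (-(c • a))).restrictScalars k).comp β.symm.toAlgHom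
  have hγe : ∀ f, γ f = Polynomial.eval (-(c • a)) (β.symm f) := fun f => by
    change Polynomial.aeval (R := A) (-(c • a)) (β.symm f) = _
    rw [Polynomial.coe_aeval_eq_eval]
  have hγ : Function.Surjective γ := fun x => ⟨β (Polynomial.C x), by
    rw [hγe, AlgEquiv.symm_apply_apply, Polynomial.eval_C]⟩
  have hcl : ∀ q, c • l * β q = β ((c • p) * q) := fun q => by
    rw [map_mul, map_smul, AlgEquiv.apply_symm_apply]
  refine Vale.Agent.P293.H311.affine_quotient γ hγ (fun _ : Unit => l) (fun _ => hlX)
    (le_antisymm ?_ ?_)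
  · intro f hf
    have e1 : Polynomial.eval (-(c • a)) (β.symm f) = 0 := by
      rw [← hγe]
      exact hf
    obtain ⟨q, hq⟩ := Polynomial.dvd_iff_isRoot.2 e1
    have e2 : f = (c • l) * β q := by
      rw [hcl, hpc, ← hq, AlgEquiv.apply_symm_apply]
    rw [e2, smul_mul_assoc, ← mul_smul_comm]
    exact Ideal.mul_mem_right _ _ (Ideal.subset_span ⟨(), rfl⟩)
  · rw [Ideal.span_le]
    rintro _ ⟨i, rfl⟩
    change γ l = 0
    have e1 : Polynomial.eval (-(c • a)) (c • p) = 0 := by
      rw [hpc, Polynomial.eval_sub, Polynomial.eval_X, Polynomial.eval_C, sub_self]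
    have e2 : l = c⁻¹ • β (c • p) := by
      rw [map_smul, smul_smul, inv_mul_cancel₀ hc, one_smul, AlgEquiv.apply_symm_apply]
    rw [e2, map_smul, hγe, AlgEquiv.symm_apply_apply, e1, smul_zero]

/-- if `w ↦ t w + c`, not the identity, is conjugate to an affine automorphism, `A` is a
polynomial ring -/
theorem poly_of_affine [CharZero k] [IsDomain A] {N : ℕ}
    (β : Polynomial A ≃ₐ[k] MvPolynomial (Fin N) k) {t : kˣ} {c : k} (htc : (t, c) ≠ (1, 0))
    (h : ∀ i, β (sa (t : k) c (β.symm (X i))) ∈
      Submodule.span k (insert 1 (Set.range (X : Fin N → MvPolynomial (Fin N) k)))) :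
    ∃ r : ℕ, Nonempty (A ≃ₐ[k] MvPolynomial (Fin r) k) := by
  by_cases ht : t = 1
  · subst ht
    refine poly_of_transl β (c := c) (fun hc => htc (by rw [hc])) ?_
    simpa using h
  · have ht' : (1 : k) - t ≠ 0 := sub_ne_zero.2 fun h => ht (Units.ext h.symm)
    let d : k := c * (1 - (t : k))⁻¹
    have hd : d - t * d = c := by
      have : d - t * d = c * ((1 - (t : k))⁻¹ * (1 - t)) := by
        change c * (1 - (t : k))⁻¹ - t * (c * (1 - (t : k))⁻¹) = _
        ring
      rw [this, inv_mul_cancel₀ ht', mul_one]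
    refine Vale.Agent.P293.H311.poly_of_affine ((ae (1 : kˣ) d).symm.trans β) (t := (t : k))
      (fun h => ht (Units.ext h)) fun i => ?_
    have e1 : ∀ q : Polynomial A, Vale.Agent.P293.H311.sc (t : k) (ae (1 : kˣ) d q) =
        ae (1 : kˣ) d (sa (t : k) c q) := by
      intro q
      have : (Vale.Agent.P293.H311.sc (t : k)).comp (sa 1 d : Polynomial A →ₐ[k] _) =
          (sa 1 d).comp (sa (t : k) c) := by
        refine Polynomial.algHom_ext' ?_ ?_
        · ext a
          simp
        · simp only [AlgHom.comp_apply, sa_X, map_add, map_smul, one_smul, sa_C,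
            Vale.Agent.P293.H311.sc_X, Vale.Agent.P293.H311.sc_C, smul_add, Polynomial.smul_C,
            add_assoc]
          congr 1
          rw [← map_add, Algebra.smul_def, ← map_mul, ← map_add]
          congr 2
          rw [← hd]
          ring
      exact congrArg (fun f => f q) this
    have e2 : ((ae (1 : kˣ) d).symm.trans β) (Vale.Agent.P293.H311.sc (t : k)
        (((ae (1 : kˣ) d).symm.trans β).symm (X i))) = β (sa (t : k) c (β.symm (X i))) := by
      change β ((ae (1 : kˣ) d).symm (Vale.Agent.P293.H311.sc (t : k)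
        (ae (1 : kˣ) d (β.symm (X i))))) = _
      rw [e1, AlgEquiv.symm_apply_apply]
    rw [e2]
    exact h i

/-- no transformation except the identity is conjugate to an affine one -/
theorem aeB_nonlin [CharZero k] [IsDomain A] {N : ℕ}
    (e : Polynomial A ≃ₐ[k] MvPolynomial (Fin N) k)
    (hA : ∀ r : ℕ, ¬ Nonempty (A ≃ₐ[k] MvPolynomial (Fin r) k)) (t : kˣ) (c : k)
    (htc : (t, c) ≠ (1, 0)) : ¬ IsConjugateToAffine (aeB e t c) := by
  rintro ⟨φ, hφ⟩
  obtain ⟨r, hr⟩ := poly_of_affine (e.trans φ) htc hφ
  exact hA r hr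

end nonlin

end Vale.Agent.P295.H311
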