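import Vale.Agent.P293.H311.Main
import Vale.Agent.P295.H311.Act
import Vale.Agent.P295.U165.Univ

/-!
P295: stable coordinates which are semi-invariants of a nonlinearizable action of the affine group
of the line.
-/

open MvPolynomial TensorProduct

namespace Vale.Agent.P295.H311

open Vale.Agent.P293.H311 (sw sw_w sw_u sw_a invS eq_of_equiv)

universe u v

/-! ## One more variable -/

section stable

variable {k : Type u} [CommRing k] {A : Type v} [CommRing A] [Algebra k A]
  {B : Type*} [CommRing B] [Algebra k B] (e : Polynomial A ≃ₐ[k] B)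

/-- the action on `B[u]`, trivial on `u`, is `w ↦ t w + c` on `B[w]` -/
theorem sw_comm (t : kˣ) (c : k) (q : Polynomial B) :
    sw e (Polynomial.mapAlgEquiv (aeB e t c) q) = sa (t : k) c (sw e q) := by
  obtain ⟨P, rfl⟩ := (Polynomial.mapAlgEquiv e).surjective q
  have e0 : (Polynomial.C (algebraMap k A c) : Polynomial A) = algebraMap k (Polynomial A) c := rfl
  have e1 : (Polynomial.C (algebraMap k B c) : Polynomial B) = algebraMap k (Polynomial B) c := rfl
  have key : ((sw e).toAlgHom.comp ((Polynomial.mapAlgEquiv (aeB e t c)).toAlgHom)).comp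
      (Polynomial.mapAlgEquiv e).toAlgHom =
      ((sa (t : k) c).comp (sw e).toAlgHom).comp (Polynomial.mapAlgEquiv e).toAlgHom := by
    refine Polynomial.algHom_ext' (Polynomial.algHom_ext' ?_ ?_) ?_
    · refine AlgHom.ext fun a => ?_
      change sw e ((Polynomial.C (Polynomial.C a)).map (e : Polynomial A →+* B)
        |>.map (aeB e t c : B →+* B)) =
        sa (t : k) c (sw e ((Polynomial.C (Polynomial.C a)).map (e : Polynomial A →+* B)))
      rw [Polynomial.map_C, Polynomial.map_C]
      change sw e (Polynomial.C (e (sa (t : k) c (e.symm (e (Polynomial.C a)))))) =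
        sa (t : k) c (sw e (Polynomial.C (e (Polynomial.C a))))
      rw [AlgEquiv.symm_apply_apply, sa_C, sw_a, sa_C]
    · change sw e ((Polynomial.C (Polynomial.X : Polynomial A)).map (e : Polynomial A →+* B)
        |>.map (aeB e t c : B →+* B)) =
        sa (t : k) c (sw e ((Polynomial.C (Polynomial.X : Polynomial A)).map
          (e : Polynomial A →+* B)))
      rw [Polynomial.map_C, Polynomial.map_C]
      change sw e (Polynomial.C (e (sa (t : k) c (e.symm (e Polynomial.X))))) =
        sa (t : k) c (sw e (Polynomial.C (e Polynomial.X)))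
      rw [AlgEquiv.symm_apply_apply, sa_X, map_add, map_smul, e0, AlgEquiv.commutes, sw_w, sa_X,
        Polynomial.C_add, ← Polynomial.smul_C, map_add, map_smul, sw_w, e1, AlgEquiv.commutes]
    · change sw e ((Polynomial.X : Polynomial (Polynomial A)).map (e : Polynomial A →+* B)
        |>.map (aeB e t c : B →+* B)) =
        sa (t : k) c (sw e ((Polynomial.X : Polynomial (Polynomial A)).map
          (e : Polynomial A →+* B)))
      rw [Polynomial.map_X, Polynomial.map_X, sw_u, sa_C]
  exact congrArg (fun f => f P) key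

end stable

section main

variable {k : Type u} [Field k] {A : Type v} [CommRing A] [Algebra k A]

/-- after one more variable with the trivial action, the action and `w` are standard -/
theorem stably_standard {n : ℕ} (e : Polynomial A ≃ₐ[k] MvPolynomial (Fin n) k) :
    IsStablyStandard (aeB e) (e Polynomial.X) := by
  refine ⟨(sw e).trans (MvPolynomial.finSuccEquiv k n).symm, ?_, fun t c i => ?_⟩
  · change (MvPolynomial.finSuccEquiv k n).symm (sw e (Polynomial.C (e Polynomial.X))) = _
    rw [sw_w, ← MvPolynomial.finSuccEquiv_X_zero (R := k), AlgEquiv.symm_apply_apply]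
  have h1 : ((sw e).trans (MvPolynomial.finSuccEquiv k n).symm).symm (X i) =
      (sw e).symm (MvPolynomial.finSuccEquiv k n (X i)) := rfl
  rw [h1, AlgEquiv.trans_apply, sw_comm, AlgEquiv.apply_symm_apply]
  refine Fin.cases ?_ (fun j => ?_) i
  · have e1 : (Polynomial.C (algebraMap k (MvPolynomial (Fin n) k) c) :
      Polynomial (MvPolynomial (Fin n) k)) = algebraMap k _ c := rfl
    rw [MvPolynomial.finSuccEquiv_X_zero, sa_X, map_add, map_smul, if_pos rfl, e1,
      AlgEquiv.commutes, ← MvPolynomial.finSuccEquiv_X_zero (R := k), AlgEquiv.symm_apply_apply,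
      MvPolynomial.smul_eq_C_mul, MvPolynomial.algebraMap_eq]
  · rw [MvPolynomial.finSuccEquiv_X_succ, sa_C, if_neg (Fin.succ_ne_zero j),
      ← MvPolynomial.finSuccEquiv_X_succ (R := k), AlgEquiv.symm_apply_apply]

/-- the invariants of the action on `B = A[w]` -/
theorem mem_invS [CharZero k] [IsDomain A] {n : ℕ}
    (e : Polynomial A ≃ₐ[k] MvPolynomial (Fin n) k) (f : MvPolynomial (Fin n) k) :
    f ∈ invS e ↔ ∀ t c, aeB e t c f = f := by
  constructor
  · rintro ⟨a, rfl⟩ t c
    change e (sa (t : k) c (e.symm (e (Polynomial.C a)))) = e (Polynomial.C a)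
    rw [AlgEquiv.symm_apply_apply, sa_C]
  · intro h
    have h1 : sa (1 : k) 1 (e.symm f) = e.symm f := by
      apply e.injective
      have := h 1 1
      rw [aeB_apply, Units.val_one] at this
      rw [this, AlgEquiv.apply_symm_apply]
    obtain ⟨a, ha⟩ := inv_transl (one_ne_zero (α := k)) _ h1
    exact ⟨a, by
      change e (Polynomial.C a) = f
      rw [← ha, AlgEquiv.apply_symm_apply]⟩

theorem bij {n : ℕ} (e : Polynomial A ≃ₐ[k] MvPolynomial (Fin n) k) :
    Function.Bijective (Polynomial.aeval (R := invS e) (e Polynomial.X)) := by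
  let s : A ≃ₐ[k] invS e := AlgEquiv.ofInjective
    (e.toAlgHom.comp (Polynomial.CAlgHom (R := k) (A := A)))
    (e.injective.comp Polynomial.C_injective)
  have h : ∀ p : Polynomial A, Polynomial.aeval (R := invS e) (e Polynomial.X)
      (Polynomial.mapAlgEquiv s p) = e p := by
    intro p
    have key : ((Polynomial.aeval (R := invS e) (e Polynomial.X)).restrictScalars k).comp
        (Polynomial.mapAlgEquiv s).toAlgHom = e.toAlgHom := by
      refine Polynomial.algHom_ext' ?_ ?_
      · refine AlgHom.ext fun a => ?_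
        change Polynomial.aeval (R := invS e) (e Polynomial.X)
          ((Polynomial.C a).map (s : A →+* invS e)) = e (Polynomial.C a)
        rw [Polynomial.map_C, Polynomial.aeval_C]
        rfl
      · change Polynomial.aeval (R := invS e) (e Polynomial.X)
          ((Polynomial.X : Polynomial A).map (s : A →+* invS e)) = e Polynomial.X
        rw [Polynomial.map_X, Polynomial.aeval_X]
    exact congrArg (fun f => f p) key
  have h2 : (Polynomial.aeval (R := invS e) (e Polynomial.X) : Polynomial (invS e) → _) =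
      (e : Polynomial A → MvPolynomial (Fin n) k) ∘ (Polynomial.mapAlgEquiv s).symm := by
    funext q
    rw [Function.comp_apply, ← h ((Polynomial.mapAlgEquiv s).symm q), AlgEquiv.apply_symm_apply]
  rw [h2]
  exact e.bijective.comp (AlgEquiv.bijective _)

/-- the properties of `w` in `A[w] = k[x_1..x_n]` -/
theorem exotic [CharZero k] {n : ℕ}
    (e : Polynomial A ≃ₐ[k] MvPolynomial (Fin n) k)
    (hA : ∀ r : ℕ, ¬ Nonempty (A ≃ₐ[k] MvPolynomial (Fin r) k)) :
    ∃ ρ : kˣ → k → (MvPolynomial (Fin n) k ≃ₐ[k] MvPolynomial (Fin n) k),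
      IsActionOfAffineGroup ρ ∧
      (∀ t c, ρ t c (e Polynomial.X) = C (t : k) * e Polynomial.X + C c) ∧
      (∀ t c, (t, c) ≠ (1, 0) → ¬ IsConjugateToAffine (ρ t c)) ∧
      IsStablyStandard ρ (e Polynomial.X) ∧ HasExoticInvariants ρ (e Polynomial.X) := by
  have hinj : Function.Injective (e.toAlgHom.comp (Polynomial.CAlgHom (R := k) (A := A))) :=
    e.injective.comp Polynomial.C_injective
  have : IsDomain A := Function.Injective.isDomain
    (e.toAlgHom.comp (Polynomial.CAlgHom (R := k) (A := A))).toRingHom hinj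
  refine ⟨aeB e, ⟨fun s b t c p => aeB_mul e s b t c p, aeB_alg e⟩, fun t c => ?_,
    fun t c h => aeB_nonlin e hA t c h, stably_standard e, invS e, mem_invS e, bij e, ?_⟩
  · have e0 : (Polynomial.C (algebraMap k A c) : Polynomial A) =
      algebraMap k (Polynomial A) c := rfl
    rw [aeB_apply, AlgEquiv.symm_apply_apply, sa_X, map_add, map_smul, e0, AlgEquiv.commutes,
      MvPolynomial.smul_eq_C_mul, MvPolynomial.algebraMap_eq]
  · rintro m ⟨s⟩
    exact hA m ⟨(AlgEquiv.ofInjective _ hinj).trans s⟩

end main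

/-- **the universal example** -/
theorem universal (n : ℕ) (hn : 5 ≤ n) : ∃ f : MvPolynomial (Fin n) ℚ,
    (IsStableCoordinateOfOrder 1 (extend ℂ f) ∧ IsStableCoordinate (extend ℂ f) ∧
      ¬ IsCoordinate (extend ℂ f)) ∧
    ∀ (k : Type u) [Field k] [CharZero k],
      ∃ ρ : kˣ → k → (MvPolynomial (Fin n) k ≃ₐ[k] MvPolynomial (Fin n) k),
        IsActionOfAffineGroup ρ ∧
        (∀ t c, ρ t c (extend k f) = C (t : k) * extend k f + C c) ∧
        (∀ t c, (t, c) ≠ (1, 0) → ¬ IsConjugateToAffine (ρ t c)) ∧
        IsStablyStandard ρ (extend k f) ∧ HasExoticInvariants ρ (extend k f) := by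
  obtain ⟨m, rfl⟩ : ∃ m, n = 4 + m + 1 := ⟨n - 5, by omega⟩
  obtain ⟨e⟩ := Vale.Agent.P293.H303.polyAQ m
  obtain ⟨h1, -, h2⟩ := Vale.Agent.P295.U165.universal_aux m e ℂ
  refine ⟨e Polynomial.X, ⟨h1, ⟨1, le_refl 1, h1⟩, (h2 inferInstance).1⟩, fun k _ _ => ?_⟩
  obtain ⟨e', he'⟩ := Vale.Agent.P295.U165.stable_R e k
  rw [extend, ← he']
  refine exotic e' ?_
  rintro r ⟨g⟩
  have h3 : r + 1 = 4 + m + 1 := eq_of_equiv (k := k)
    (((MvPolynomial.finSuccEquiv k r).trans (Polynomial.mapAlgEquiv g.symm)).trans e')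
  obtain rfl : r = 4 + m := by omega
  exact Vale.Agent.P293.H303.not_affine_R m k ⟨g⟩

end Vale.Agent.P295.H311
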